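import Vale.Agent.P352.H526.Ten
import Vale.Agent.P352.SL.S2a
import Vale.Agent.P352.ND.Defs
import Vale.Agent.P352.H15.NPDefs

/-!
# P352 H526: linearity and continuity of the second moments from their existence

If the second moments of `T_aa` on null slabs converge between the vectors of the domain, to
operators on the domain, for all real Schwartz functions of `a·x`, then they are linear and weakly
continuous in the Schwartz function (Banach-Steinhaus theorem).
-/

set_option linter.all false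

noncomputable section

open MeasureTheory Filter Topology SchwartzMap
open scoped SchwartzMap ContDiff

namespace Vale.Agent.P352.H526

open GF (Ix V Fn Fld Theory Sch ev eta o bas)
open H246 H496 H755 H15

variable {D : Type*} [NormedAddCommGroup D] [InnerProductSpace ℂ D] {Q : GF.Theory D}
  {T : Ix → Ix → GF.Fld D}

/-! ### The cutoffs -/

/-- the linear form `a·x` -/
def mdL (a : V) : V →L[ℝ] ℝ :=
  ∑ m, (GF.eta m * a m) • (ContinuousLinearMap.proj m : V →L[ℝ] ℝ)

lemma mdL_apply (a x : V) : mdL a x = GF.mdot a x := by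
  simp [mdL, GF.mdot, ContinuousLinearMap.sum_apply]

/-- the linear map in the argument of the cutoff -/
def cutL (a b : V) (R : ℝ) : V →L[ℝ] V :=
  (R ^ 2)⁻¹ • (mdL b).smulRight a + R⁻¹ • (ContinuousLinearMap.id ℝ V - (mdL a).smulRight b -
    (mdL b).smulRight a)

lemma cutL_apply (a b : V) (R : ℝ) (x : V) : cutL a b R x =
    (GF.mdot b x / R ^ 2) • a + R⁻¹ • (x - GF.mdot a x • b - GF.mdot b x • a) := by
  simp only [cutL, ContinuousLinearMap.add_apply, ContinuousLinearMap.smul_apply,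
    ContinuousLinearMap.sub_apply, ContinuousLinearMap.smulRight_apply, mdL_apply,
    ContinuousLinearMap.id_apply, smul_smul]
  congr 2
  rw [div_eq_inv_mul]

lemma cut_eq (a b : V) (κ : V → ℝ) (R : ℝ) (x : V) : cut a b κ R x = κ (cutL a b R x) := by
  rw [cutL_apply]
  rfl

lemma cutL_bound {a b : V} (hb : GF.mdot b b = 0) (hab : GF.mdot a b = 1) {R : ℝ} (hR : 0 < R) :
    ∃ C0 : ℝ, ∀ x, ‖x‖ ≤ C0 * (‖cutL a b R x‖ + |mdL a x|) := by
  have hba : GF.mdot b a = 1 := by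
    rw [← hab]
    unfold GF.mdot
    exact Finset.sum_congr rfl fun m _ => by ring
  have h1 : ∀ x, mdL b (cutL a b R x) = GF.mdot b x / R ^ 2 := by
    intro x
    have e : mdL b (cutL a b R x) = (GF.mdot b x / R ^ 2) * mdL b a +
        R⁻¹ * (mdL b x - GF.mdot a x * mdL b b - GF.mdot b x * mdL b a) := by
      rw [cutL_apply]
      simp only [map_add, map_smul, map_sub, smul_eq_mul]
    rw [e, mdL_apply, mdL_apply, mdL_apply, hba, hb]
    ring
  have h2 : ∀ x, x = R • cutL a b R x + (mdL a x) • b +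
      ((R ^ 2 - R) * mdL b (cutL a b R x)) • a := by
    intro x
    rw [h1, cutL_apply, mdL_apply]
    funext n
    simp only [Pi.add_apply, Pi.smul_apply, Pi.sub_apply, smul_eq_mul]
    field_simp
    ring
  refine ⟨R + ‖b‖ + |R ^ 2 - R| * ‖mdL b‖ * ‖a‖, fun x => ?_⟩
  have h3 : ‖x‖ ≤ R * ‖cutL a b R x‖ + |mdL a x| * ‖b‖ +
      |R ^ 2 - R| * (‖mdL b‖ * ‖cutL a b R x‖) * ‖a‖ := by
    conv_lhs => rw [h2 x]
    refine (norm_add_le _ _).trans (add_le_add ((norm_add_le _ _).trans (add_le_add ?_ ?_)) ?_)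
    · rw [norm_smul, Real.norm_eq_abs, abs_of_pos hR]
    · rw [norm_smul, Real.norm_eq_abs]
    · rw [norm_smul, norm_mul, Real.norm_eq_abs, Real.norm_eq_abs]
      refine mul_le_mul_of_nonneg_right ?_ (norm_nonneg _)
      refine mul_le_mul_of_nonneg_left ?_ (abs_nonneg _)
      rw [← Real.norm_eq_abs]
      exact (mdL b).le_opNorm _
  refine h3.trans ?_
  have p1 := norm_nonneg (cutL a b R x)
  have p2 := abs_nonneg (mdL a x)
  have p3 := norm_nonneg b
  have p4 : 0 ≤ |R ^ 2 - R| * ‖mdL b‖ * ‖a‖ := by positivity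
  nlinarith [mul_nonneg hR.le p2, mul_nonneg p3 p1, mul_nonneg p4 p2]

/-! ### The sources as Schwartz functions -/

lemma cutL_bound' {a b : V} (hb : GF.mdot b b = 0) (hab : GF.mdot a b = 1) (R : ℝ) :
    ∃ C0 : ℝ, ∀ x, ‖x‖ ≤ C0 * (‖cutL a b (max R 1) x‖ + |mdL a x|) :=
  cutL_bound hb hab (lt_of_lt_of_le one_pos (le_max_right R 1))

/-- the product of the cutoff and `f (a·x)` -/
def cutS {a b : V} (hb : GF.mdot b b = 0) (hab : GF.mdot a b = 1) {κ : V → ℝ} (hκ : Tst κ)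
    (y : V) (R : ℝ) : 𝓢(ℝ, ℂ) →L[ℂ] 𝓢(V, ℂ) :=
  (compSubConstCLM ℂ y).comp ((tenL hκ.1 hκ.2 (cutL a b (max R 1)) (mdL a)
    (Classical.choose_spec (cutL_bound' hb hab R))).comp (compSubConstCLM ℂ (-GF.mdot a y)))

lemma cutS_apply {a b : V} (hb : GF.mdot b b = 0) (hab : GF.mdot a b = 1) {κ : V → ℝ}
    (hκ : Tst κ) (y : V) {R : ℝ} (hR : 1 ≤ R) (f : 𝓢(ℝ, ℂ)) (x : V) :
    cutS hb hab hκ y R f x = ((cut a b κ R (x - y) : ℝ) : ℂ) * f (GF.mdot a x) := by
  have e : mdL a (x - y) - -GF.mdot a y = GF.mdot a x := by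
    rw [map_sub, mdL_apply, mdL_apply]
    ring
  show κ (cutL a b (max R 1) (x - y)) • f (mdL a (x - y) - -GF.mdot a y) = _
  rw [e, max_eq_left hR, ← cut_eq a b κ R, Complex.real_smul]

lemma tg_sq (c : ℝ) : Function.HasTemperateGrowth fun x : V => ((c * -GF.mdot x x : ℝ) : ℂ) := by
  have h1 : ∀ m : Ix, Function.HasTemperateGrowth fun x : V => x m := fun m =>
    (ContinuousLinearMap.proj m : V →L[ℝ] ℝ).hasTemperateGrowth
  have h2 : Function.HasTemperateGrowth fun x : V => c * -GF.mdot x x := by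
    refine (Function.HasTemperateGrowth.const c).mul ?_
    have h3 : Function.HasTemperateGrowth fun x : V => GF.mdot x x := by
      unfold GF.mdot
      refine Function.HasTemperateGrowth.sum fun m _ => ?_
      exact ((Function.HasTemperateGrowth.const (GF.eta m)).mul (h1 m)).mul (h1 m)
    exact h3.neg
  exact Function.Complex.hasTemperateGrowth_ofReal.comp h2

/-- the sources of the second moments -/
def srcS {a b : V} (hb : GF.mdot b b = 0) (hab : GF.mdot a b = 1) {κ : V → ℝ} (hκ : Tst κ)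
    (y : V) (R : ℝ) (m n : Ix) : 𝓢(ℝ, ℂ) →L[ℂ] 𝓢(V, ℂ) :=
  (smulLeftCLM ℂ fun x : V => ((eta m * a m * (eta n * a n) * -GF.mdot x x : ℝ) : ℂ)).comp
    (cutS hb hab hκ y R)

lemma srcS_apply {a b : V} (hb : GF.mdot b b = 0) (hab : GF.mdot a b = 1) {κ : V → ℝ}
    (hκ : Tst κ) (y : V) {R : ℝ} (hR : 1 ≤ R) (m n : Ix) (f : 𝓢(ℝ, ℂ)) (x : V) :
    srcS hb hab hκ y R m n f x = ((eta m * a m * (eta n * a n) * -GF.mdot x x *
      cut a b κ R (x - y) : ℝ) : ℂ) * f (GF.mdot a x) := by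
  show smulLeftCLM ℂ (fun x : V => ((eta m * a m * (eta n * a n) * -GF.mdot x x : ℝ) : ℂ))
    (cutS hb hab hκ y R f) x = _
  rw [smulLeftCLM_apply_apply (tg_sq _), cutS_apply hb hab hκ y hR, smul_eq_mul]
  push_cast
  ring

/-! ### Matrix elements of the fields -/

/-- the matrix elements of a field -/
def fldL (B : Fld D) (hB : Q.fld B) (v w : D) : 𝓢(V, ℂ) →L[ℂ] ℂ :=
  have hz : B (ev 0) v = 0 := by
    have h1 := Q.lin B (ev 0) (ev 0) (1 : ℂ) v hB ⟨0, rfl⟩ ⟨0, rfl⟩
    have e : (fun x => ev 0 x + (1 : ℂ) * ev 0 x) = ev (0 : Sch) := by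
      funext x
      show (0 : Sch) x + 1 * (0 : Sch) x = (0 : Sch) x
      simp
    rw [e] at h1
    simpa using h1
  { toFun := fun g => inner ℂ w (B (ev g) v)
    map_add' := fun f g => by
      have h1 := Q.lin B (ev f) (ev g) (1 : ℂ) v hB ⟨f, rfl⟩ ⟨g, rfl⟩
      have e : (fun x => ev f x + (1 : ℂ) * ev g x) = ev (f + g) := by
        funext x
        show f x + 1 * g x = (f + g) x
        simp
      rw [e] at h1
      show inner ℂ w (B (ev (f + g)) v) = _
      rw [h1]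
      simp [inner_add_right]
    map_smul' := fun c g => by
      have h1 := Q.lin B (ev 0) (ev g) c v hB ⟨0, rfl⟩ ⟨g, rfl⟩
      have e : (fun x => ev 0 x + c * ev g x) = ev (c • g) := by
        funext x
        show (0 : Sch) x + c * g x = (c • g) x
        simp
      rw [e, hz] at h1
      show inner ℂ w (B (ev (c • g)) v) = _
      rw [h1]
      simp [inner_smul_right]
    cont := continuous_const.inner (Q.cont B v hB) }

lemma fldL_apply (B : Fld D) (hB : Q.fld B) (v w : D) (g : 𝓢(V, ℂ)) :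
    fldL B hB v w g = inner ℂ w (B (ev g) v) := rfl

/-- the cut off second moments -/
def momL (hT : Q.IsStress T) {a b : V} (hb : GF.mdot b b = 0) (hab : GF.mdot a b = 1)
    {κ : V → ℝ} (hκ : Tst κ) (y : V) (v w : D) (R : ℝ) : 𝓢(ℝ, ℂ) →L[ℂ] ℂ :=
  ∑ m, ∑ n, (fldL (T m n) (Q.bose_fld _ (hT.bose m n)) v w).comp (srcS hb hab hκ y R m n)

lemma momL_apply (hT : Q.IsStress T) {a b : V} (hb : GF.mdot b b = 0) (hab : GF.mdot a b = 1)
    {κ : V → ℝ} (hκ : Tst κ) (y : V) (v w : D) {R : ℝ} (hR : 1 ≤ R) {f : 𝓢(ℝ, ℂ)} {ψ : ℝ → ℝ}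
    (hf : ∀ u, f u = ψ u) :
    momL hT hb hab hκ y v w R f = inner ℂ w (sm T (fun m n x => eta m * a m * (eta n * a n) *
      -GF.mdot x x * ctf a b κ y ψ R x) v) := by
  unfold momL sm
  simp only [ContinuousLinearMap.sum_apply, ContinuousLinearMap.comp_apply, fldL_apply, inner_sum]
  refine Finset.sum_congr rfl fun m _ => Finset.sum_congr rfl fun n _ => ?_
  congr 2
  funext x
  show srcS hb hab hκ y R m n f x = _
  rw [srcS_apply hb hab hκ y hR, hf]
  unfold ctf
  push_cast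
  ring

/-! ### Real and imaginary parts -/

/-- the real part -/
def reS (f : 𝓢(ℝ, ℂ)) : 𝓢(ℝ, ℝ) := SchwartzMap.postcompCLM (𝕜 := ℝ) Complex.reCLM f

/-- the imaginary part -/
def imS (f : 𝓢(ℝ, ℂ)) : 𝓢(ℝ, ℝ) := SchwartzMap.postcompCLM (𝕜 := ℝ) Complex.imCLM f

/-- the complex function -/
def ofS (f : 𝓢(ℝ, ℝ)) : 𝓢(ℝ, ℂ) := SchwartzMap.postcompCLM (𝕜 := ℝ) Complex.ofRealCLM f

lemma reS_apply (f : 𝓢(ℝ, ℂ)) (u : ℝ) : reS f u = (f u).re := rfl

lemma imS_apply (f : 𝓢(ℝ, ℂ)) (u : ℝ) : imS f u = (f u).im := rfl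

lemma ofS_apply (f : 𝓢(ℝ, ℝ)) (u : ℝ) : ofS f u = (f u : ℂ) := rfl

lemma eq_reS_imS (f : 𝓢(ℝ, ℂ)) : f = ofS (reS f) + Complex.I • ofS (imS f) := by
  ext u
  show f u = ((f u).re : ℂ) + Complex.I • ((f u).im : ℂ)
  rw [smul_eq_mul, mul_comm, Complex.re_add_im]

/-- the complex linear extension of the second moments -/
def Mc (M : 𝓢(ℝ, ℝ) → D → D) (f : 𝓢(ℝ, ℂ)) (v : D) : D := M (reS f) v + Complex.I • M (imS f) v

section

variable {a b : V} {κ : V → ℝ} {y : V} {M : 𝓢(ℝ, ℝ) → D → D}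
  (hT : Q.IsStress T) (hb : GF.mdot b b = 0) (hab : GF.mdot a b = 1) (hκ : Tst κ)
  (h : ∀ (f : 𝓢(ℝ, ℝ)) (v w : D), Tendsto (fun R => inner ℂ w (sm T (fun m n x =>
    eta m * a m * (eta n * a n) * -GF.mdot x x * ctf a b κ y f R x) v)) atTop
    (𝓝 (inner ℂ w (M f v))))
include hT hb hab hκ h

lemma momL_tend (v w : D) (f : 𝓢(ℝ, ℂ)) :
    Tendsto (fun R => momL hT hb hab hκ y v w R f) atTop (𝓝 (inner ℂ w (Mc M f v))) := by
  have key : ∀ g : 𝓢(ℝ, ℝ), Tendsto (fun R => momL hT hb hab hκ y v w R (ofS g)) atTop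
      (𝓝 (inner ℂ w (M g v))) := by
    intro g
    refine (h g v w).congr' ?_
    filter_upwards [eventually_ge_atTop (1 : ℝ)] with R hR
    exact (momL_apply hT hb hab hκ y v w hR fun u => rfl).symm
  have h1 := (key (reS f)).add ((key (imS f)).const_mul Complex.I)
  have e : inner ℂ w (Mc M f v) = inner ℂ w (M (reS f) v) +
      Complex.I * inner ℂ w (M (imS f) v) := by
    unfold Mc
    rw [inner_add_right, inner_smul_right]
  rw [e]
  refine h1.congr fun R => ?_
  conv_rhs => rw [eq_reS_imS f, map_add, map_smul]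
  rfl

/-- **The second moments are a weakly continuous linear function** (Banach-Steinhaus). -/
theorem exists_momL (v w : D) : ∃ L : 𝓢(ℝ, ℂ) →L[ℂ] ℂ, ∀ f, L f = inner ℂ w (Mc M f v) := by
  have := SL.barrelled_R'
  exact ⟨continuousLinearMapOfTendsto (fun R => momL hT hb hab hκ y v w R)
    (f := fun f => inner ℂ w (Mc M f v))
    (tendsto_pi_nhds.2 fun f => momL_tend hT hb hab hκ h v w f), fun f => rfl⟩

theorem mc_cont (v w : D) : Continuous fun f : 𝓢(ℝ, ℂ) => inner ℂ w (Mc M f v) := by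
  obtain ⟨L, hL⟩ := exists_momL hT hb hab hκ h v w
  exact L.continuous.congr hL

theorem mc_lin (f g : 𝓢(ℝ, ℂ)) (c : ℂ) (v : D) :
    Mc M (f + c • g) v = Mc M f v + c • Mc M g v := by
  refine ext_inner_left ℂ fun w => ?_
  obtain ⟨L, hL⟩ := exists_momL hT hb hab hκ h v w
  rw [← hL, inner_add_right, inner_smul_right, ← hL, ← hL, map_add, map_smul, smul_eq_mul]

/-- the second moments of real functions -/
theorem mc_mom {f : 𝓢(ℝ, ℂ)} {ψ : ℝ → ℝ} (hf : ∀ u, f u = ψ u) (v w : D) :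
    Tendsto (fun R => inner ℂ w (sm T (fun m n x =>
      eta m * a m * (eta n * a n) * -GF.mdot x x * ctf a b κ y ψ R x) v)) atTop
      (𝓝 (inner ℂ w (Mc M f v))) := by
  refine (momL_tend hT hb hab hκ h v w f).congr' ?_
  filter_upwards [eventually_ge_atTop (1 : ℝ)] with R hR
  exact momL_apply hT hb hab hκ y v w hR hf

end

end Vale.Agent.P352.H526

end
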