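import Vale.Agent.P352.H526.M2
import Vale.Agent.P352.MO.Stm
import Vale.Agent.P352.H755.R7h

/-!
# P352 H526: `OneMom` from the existence of the second moments alone
-/

set_option linter.all false

noncomputable section

open MeasureTheory Filter Topology SchwartzMap
open scoped SchwartzMap ContDiff

namespace Vale.Agent.P352.H526

open GF (Ix V Fn Fld Theory Sch ev eta o bas)
open H246 H496 H755 H15

variable {D : Type*} [NormedAddCommGroup D] [InnerProductSpace ℂ D] {Q : GF.Theory D}
  {T : Ix → Ix → GF.Fld D} {A : (V → V) → D → D}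

/-- The second moments `M f = - ∫ f (a·x) (x·x) T_aa(x) dx` of the null energy density `T_aa` exist
for the null vector `a` and all real Schwartz functions `f`, as operators on `D`. No linearity and
no continuity is assumed. -/
structure OneLim (Q : Theory D) (T : Ix → Ix → Fld D) (A : (V → V) → D → D) (a : V)
    (M : 𝓢(ℝ, ℝ) → D → D) : Prop extends Rep Q A where
  null : IsNull a
  mom : ∀ b κ y (f : 𝓢(ℝ, ℝ)) v w, IsNull b → GF.mdot a b = 1 → Tst κ →
    (∀ᶠ x in 𝓝 0, κ x = 1) → Tendsto (fun R =>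
    inner ℂ w (sm T (fun m n x => eta m * a m * (eta n * a n) * -GF.mdot x x *
      ctf a b κ y f R x) v)) atTop (𝓝 (inner ℂ w (M f v)))

/-- **The existence of the second moments suffices.** -/
theorem oneMom_of (hT : Q.IsStress T) {a : V} {M : 𝓢(ℝ, ℝ) → D → D} (h : OneLim Q T A a M) :
    MS.OneMom Q T A a (Mc M) := by
  obtain ⟨b, hb, hab⟩ := H755.exists_dual h.null
  obtain ⟨κ, hκ, hκ1⟩ := exists_kp
  have h0 := fun (f : 𝓢(ℝ, ℝ)) (v w : D) => h.mom b κ 0 f v w hb hab hκ hκ1
  refine ⟨h.toRep, h.null, fun f g c v => mc_lin hT hb.1 hab hκ h0 f g c v,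
    fun v w => mc_cont hT hb.1 hab hκ h0 v w, ?_⟩
  intro b' κ' y ψ f v w hA hf
  obtain ⟨-, hb', hab', hκ', hκ1', hψ⟩ := hA
  exact mc_mom hT hb'.1 hab' hκ' (fun f v w => h.mom b' κ' y f v w hb' hab' hκ' hκ1') hf v w

end Vale.Agent.P352.H526

end
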