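import Mathlib.Analysis.Distribution.SchwartzSpace.Basic
import Mathlib.Analysis.LocallyConvex.Barrelled

/-!
# P352 H526: products of test functions on the line and cutoffs, as Schwartz functions
-/

noncomputable section

open MeasureTheory Filter Topology SchwartzMap
open scoped SchwartzMap ContDiff

namespace Vale.Agent.P352.H526

variable {E : Type*} [NormedAddCommGroup E] [NormedSpace ℝ E]

lemma bdd_iter {κ : E → ℝ} (hκ : ContDiff ℝ ∞ κ) (hc : HasCompactSupport κ) (n : ℕ) :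
    ∃ B, 0 ≤ B ∧ ∀ i ≤ n, ∀ x, ‖iteratedFDeriv ℝ i κ x‖ ≤ B := by
  induction n with
  | zero =>
    obtain ⟨C, hC⟩ := (hκ.continuous_iteratedFDeriv (m := 0) (by simp)).bounded_above_of_compact_support
      (hc.iteratedFDeriv 0)
    refine ⟨|C|, abs_nonneg _, fun i hi x => ?_⟩
    obtain rfl : i = 0 := by omega
    exact (hC x).trans (le_abs_self C)
  | succ n ih =>
    obtain ⟨B, hB0, hB⟩ := ih
    obtain ⟨C, hC⟩ := (hκ.continuous_iteratedFDeriv (m := n + 1)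
      (by exact_mod_cast le_top)).bounded_above_of_compact_support (hc.iteratedFDeriv (n + 1))
    refine ⟨max B |C|, hB0.trans (le_max_left _ _), fun i hi x => ?_⟩
    rcases Nat.lt_or_ge i (n + 1) with h | h
    · exact (hB i (by omega) x).trans (le_max_left _ _)
    · obtain rfl : i = n + 1 := by omega
      exact ((hC x).trans (le_abs_self C)).trans (le_max_right _ _)

lemma norm_iter_comp {F G : Type*} [NormedAddCommGroup F] [NormedSpace ℝ F]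
    [NormedAddCommGroup G] [NormedSpace ℝ G] {f : F → G} (hf : ContDiff ℝ ∞ f) (P : E →L[ℝ] F)
    (i : ℕ) (x : E) :
    ‖iteratedFDeriv ℝ i (fun y => f (P y)) x‖ ≤ ‖iteratedFDeriv ℝ i f (P x)‖ * ‖P‖ ^ i := by
  have h := P.iteratedFDeriv_comp_right hf x (i := i) (by exact_mod_cast le_top)
  have e : (fun y => f (P y)) = f ∘ P := rfl
  rw [e, h]
  refine (ContinuousMultilinearMap.norm_compContinuousLinearMap_le _ _).trans ?_
  simp

/-- the source `x ↦ κ (P x) f (ℓ x)` -/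
lemma ten_bound {κ : E → ℝ} (hκ : ContDiff ℝ ∞ κ) (hc : HasCompactSupport κ) (P : E →L[ℝ] E)
    (ℓ : E →L[ℝ] ℝ) {C0 : ℝ} (hC : ∀ x, ‖x‖ ≤ C0 * (‖P x‖ + |ℓ x|)) (k n : ℕ) :
    ∃ (s : Finset (ℕ × ℕ)) (C : ℝ), 0 ≤ C ∧ ∀ (f : 𝓢(ℝ, ℂ)) (x : E),
      ‖x‖ ^ k * ‖iteratedFDeriv ℝ n (fun y => κ (P y) • f (ℓ y)) x‖ ≤
        C * s.sup (schwartzSeminormFamily ℂ ℝ ℂ) f := by
  obtain ⟨B, hB0, hB⟩ := bdd_iter hκ hc n
  obtain ⟨r, hr0, hr⟩ : ∃ r, 0 ≤ r ∧ ∀ y ∈ tsupport κ, ‖y‖ ≤ r := by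
    obtain ⟨r, hr⟩ := hc.isCompact.isBounded.exists_norm_le
    exact ⟨|r|, abs_nonneg _, fun y hy => (hr y hy).trans (le_abs_self r)⟩
  set C1 : ℝ := |C0| * (r + 1) with hC1
  have hC1' : 0 ≤ C1 := by positivity
  refine ⟨Finset.Iic (k, n), ∑ i ∈ Finset.range (n + 1), (n.choose i : ℝ) * (B * ‖P‖ ^ i) *
    ‖ℓ‖ ^ (n - i) * (C1 ^ k * 2 ^ k), by positivity, fun f x => ?_⟩
  have hsup : 0 ≤ (Finset.Iic (k, n)).sup (schwartzSeminormFamily ℂ ℝ ℂ) f := apply_nonneg _ _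
  have h0 := norm_iteratedFDeriv_smul_le (𝕜 := ℝ) (𝕜' := ℝ) (f := fun y => κ (P y))
    (g := fun y => f (ℓ y)) (N := ∞) (hκ.comp P.contDiff)
    ((f.smooth ⊤).comp ℓ.contDiff) x (n := n) (by exact_mod_cast le_top)
  rw [Finset.sum_mul]
  refine (mul_le_mul_of_nonneg_left h0 (by positivity)).trans ?_
  rw [Finset.mul_sum]
  refine Finset.sum_le_sum fun i hi => ?_
  have hi' : i ≤ n := Nat.lt_succ_iff.1 (Finset.mem_range.1 hi)
  by_cases hx : P x ∈ tsupport κ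
  · -- the size of `x`
    have hxn : ‖x‖ ≤ C1 * (1 + ‖ℓ x‖) := by
      have h1 := hC x
      have h2 := hr _ hx
      have h3 : C0 * (‖P x‖ + |ℓ x|) ≤ |C0| * (r + |ℓ x|) := by
        refine mul_le_mul (le_abs_self _) (by linarith) (by positivity) (abs_nonneg _)
      rw [Real.norm_eq_abs]
      have h4 : |C0| * (r + |ℓ x|) ≤ |C0| * ((r + 1) * (1 + |ℓ x|)) := by
        refine mul_le_mul_of_nonneg_left ?_ (abs_nonneg _)
        nlinarith [abs_nonneg (ℓ x), mul_nonneg hr0 (abs_nonneg (ℓ x))]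
      calc ‖x‖ ≤ _ := h1
        _ ≤ _ := h3
        _ ≤ _ := h4
        _ = C1 * (1 + |ℓ x|) := by rw [hC1]; ring
    have e1 : ‖iteratedFDeriv ℝ i (fun y => κ (P y)) x‖ ≤ B * ‖P‖ ^ i :=
      (norm_iter_comp hκ P i x).trans (mul_le_mul_of_nonneg_right (hB i hi' _) (by positivity))
    have e2 : ‖iteratedFDeriv ℝ (n - i) (fun y => f (ℓ y)) x‖ ≤
        ‖iteratedFDeriv ℝ (n - i) f (ℓ x)‖ * ‖ℓ‖ ^ (n - i) := norm_iter_comp (f.smooth ⊤) ℓ _ x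
    have e3 : (1 + ‖ℓ x‖) ^ k * ‖iteratedFDeriv ℝ (n - i) f (ℓ x)‖ ≤
        2 ^ k * (Finset.Iic (k, n)).sup (schwartzSeminormFamily ℂ ℝ ℂ) f :=
      SchwartzMap.one_add_le_sup_seminorm_apply (𝕜 := ℂ) (m := (k, n)) (k := k) (n := n - i)
        le_rfl (Nat.sub_le n i) f (ℓ x)
    have e4 : ‖x‖ ^ k ≤ C1 ^ k * (1 + ‖ℓ x‖) ^ k := by
      rw [← mul_pow]
      exact pow_le_pow_left₀ (norm_nonneg _) hxn k
    calc ‖x‖ ^ k * ((n.choose i : ℝ) * ‖iteratedFDeriv ℝ i (fun y => κ (P y)) x‖ *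
          ‖iteratedFDeriv ℝ (n - i) (fun y => f (ℓ y)) x‖)
        ≤ (C1 ^ k * (1 + ‖ℓ x‖) ^ k) * ((n.choose i : ℝ) * (B * ‖P‖ ^ i) *
          (‖iteratedFDeriv ℝ (n - i) f (ℓ x)‖ * ‖ℓ‖ ^ (n - i))) := by
          gcongr
      _ = (n.choose i : ℝ) * (B * ‖P‖ ^ i) * ‖ℓ‖ ^ (n - i) * C1 ^ k *
          ((1 + ‖ℓ x‖) ^ k * ‖iteratedFDeriv ℝ (n - i) f (ℓ x)‖) := by ring
      _ ≤ (n.choose i : ℝ) * (B * ‖P‖ ^ i) * ‖ℓ‖ ^ (n - i) * C1 ^ k *
          (2 ^ k * (Finset.Iic (k, n)).sup (schwartzSeminormFamily ℂ ℝ ℂ) f) := by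
          gcongr
      _ = _ := by ring
  · have h1 : iteratedFDeriv ℝ i (fun y => κ (P y)) x = 0 := by
      have h2 : P x ∉ Function.support (iteratedFDeriv ℝ i κ) := fun h =>
        hx (support_iteratedFDeriv_subset (𝕜 := ℝ) i h)
      have h3 : ‖iteratedFDeriv ℝ i (fun y => κ (P y)) x‖ ≤ 0 := by
        refine (norm_iter_comp hκ P i x).trans ?_
        rw [Function.notMem_support.1 h2]
        simp
      exact norm_le_zero_iff.1 h3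
    rw [h1]
    simp only [norm_zero, mul_zero, zero_mul]
    positivity

/-- the map `f ↦ (x ↦ κ (P x) f (ℓ x))` -/
def tenL {κ : E → ℝ} (hκ : ContDiff ℝ ∞ κ) (hc : HasCompactSupport κ) (P : E →L[ℝ] E)
    (ℓ : E →L[ℝ] ℝ) {C0 : ℝ} (hC : ∀ x, ‖x‖ ≤ C0 * (‖P x‖ + |ℓ x|)) : 𝓢(ℝ, ℂ) →L[ℂ] 𝓢(E, ℂ) :=
  SchwartzMap.mkCLM (σ := RingHom.id ℂ) (fun f y => κ (P y) • f (ℓ y))
    (fun f g y => by simp only [add_apply, smul_add])
    (fun c f y => by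
      simp only [smul_apply, RingHom.id_apply]
      rw [smul_comm])
    (fun f => (hκ.comp P.contDiff).smul ((f.smooth ⊤).comp ℓ.contDiff))
    (fun n => ten_bound hκ hc P ℓ hC n.1 n.2)

lemma tenL_apply {κ : E → ℝ} (hκ : ContDiff ℝ ∞ κ) (hc : HasCompactSupport κ) (P : E →L[ℝ] E)
    (ℓ : E →L[ℝ] ℝ) {C0 : ℝ} (hC : ∀ x, ‖x‖ ≤ C0 * (‖P x‖ + |ℓ x|)) (f : 𝓢(ℝ, ℂ)) (x : E) :
    tenL hκ hc P ℓ hC f x = κ (P x) • f (ℓ x) := rfl

end Vale.Agent.P352.H526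

end
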